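import Vale.Agent.P073.ConicalBody
import Vale.Agent.P073.H225.RV
import Mathlib.Topology.UnitInterval

/-!
# P073: sweeping a compact conical set by level preserving conical homeomorphisms

`BoxStk S t`: below the height `t` the set `S` consists of finitely many layers, each of which is
either vertical, or (up to a homeomorphism of the plane) vertical outside a box and a cone inside
the box, with vertical margins below and above the box.
-/

open Set Metric Topology Filter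

namespace P073.ALXG

open P073.H225

variable {W : Type*} [NormedAddCommGroup W] [NormedSpace ℝ W]

/-- regular window at the level `a` -/
def SpecR (S : Set (W × ℝ)) : Prop :=
  ∀ a : ℝ, (∀ w : W, (w, a) ∈ S → FlowAt S (w, a)) →
    ∃ Ψ : ConHomeo (univ : Set (W × ℝ)) (univ : Set (W × ℝ)), LevelPres Ψ ∧
      (∀ w, Ψ.toFun (w, a) = (w, a)) ∧ ∃ δ > 0, ∀ w z, |z - a| ≤ δ →
        (Ψ.toFun (w, z) ∈ S ↔ (w, a) ∈ S)

/-- vertex window at the point `(w₀, a)` -/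
def SpecV (S : Set (W × ℝ)) : Prop :=
  ∀ (a : ℝ) (w₀ : W), (∀ w : W, w ≠ w₀ → (w, a) ∈ S → FlowAt S (w, a)) →
    ∃ Ψ : ConHomeo (univ : Set (W × ℝ)) (univ : Set (W × ℝ)), LevelPres Ψ ∧
      (∀ w, Ψ.toFun (w, a) = (w, a)) ∧ ∃ δ > 0, ∃ η > 0, ∀ w z, |z - a| ≤ δ →
        |z - a| ≤ η * ‖w - w₀‖ → (Ψ.toFun (w, z) ∈ S ↔ (w, a) ∈ S)

theorem specR [ProperSpace W] (hN : ConicalOn (fun w : W => ‖w‖) univ) {S : Set (W × ℝ)}
    (hS : IsCompact S) : SpecR S := fun a ha => exists_regular hN hS a ha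

theorem specV [ProperSpace W] (hN : ConicalOn (fun w : W => ‖w‖) univ) {S : Set (W × ℝ)}
    (hS : IsCompact S) (hc : LocCone S) : SpecV S := fun a w₀ ha =>
  exists_vertex hN hS a w₀ (hc _) ha

/-- the layered sets (`g` is a homeomorphism of the plane: coordinates of the box layer) -/
inductive BoxStk (S : Set (W × ℝ)) : ℝ → Prop
  | base (t : ℝ) (h : ∀ p ∈ S, t < p.2) : BoxStk S t
  | vert (a b : ℝ) (hab : a ≤ b) (h : ∀ w z, a ≤ z → z ≤ b → ((w, z) ∈ S ↔ (w, a) ∈ S))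
      (H : BoxStk S a) : BoxStk S b
  | box (g : ConHomeo (univ : Set W) (univ : Set W)) (w₀ : W) (c δ ρ μ : ℝ) (hδ : 0 < δ)
      (hρ : 0 < ρ) (hμ : 0 < μ)
      (hv : ∀ w z, ρ ≤ ‖w - w₀‖ → |z - c| ≤ δ → ((g.toFun w, z) ∈ S ↔ (g.toFun w, c) ∈ S))
      (hc : ∀ w z s, ‖w - w₀‖ ≤ ρ → |z - c| ≤ δ → 0 < s → s ≤ 1 →
        ((g.toFun (w₀ + s • (w - w₀)), c + s * (z - c)) ∈ S ↔ (g.toFun w, z) ∈ S))
      (hlo : ∀ w z, c - δ - μ ≤ z → z ≤ c - δ → ((w, z) ∈ S ↔ (w, c - δ) ∈ S))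
      (hhi : ∀ w z, c + δ ≤ z → z ≤ c + δ + μ → ((w, z) ∈ S ↔ (w, c + δ) ∈ S))
      (H : BoxStk S (c - δ - μ)) : BoxStk S (c + δ + μ)

theorem BoxStk.congr {S S' : Set (W × ℝ)} {t : ℝ} (h : BoxStk S t)
    (he : ∀ p : W × ℝ, p.2 ≤ t → (p ∈ S ↔ p ∈ S')) : BoxStk S' t := by
  induction h with
  | base t h =>
    refine BoxStk.base t fun p hp => ?_
    by_contra hlt
    push Not at hlt
    exact absurd (h p ((he p hlt).2 hp)) (not_lt.2 hlt)
  | vert a b hab h H ih =>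
    refine BoxStk.vert a b hab (fun w z hz hz' => ?_) (ih fun p hp => he p (hp.trans hab))
    rw [← he (w, z) hz', ← he (w, a) hab]
    exact h w z hz hz'
  | box g w₀ c δ ρ μ hδ hρ hμ hv hc hlo hhi H ih =>
    have hle : ∀ z : ℝ, |z - c| ≤ δ → z ≤ c + δ + μ := fun z hz => by
      have := (abs_le.1 hz).2; linarith
    refine BoxStk.box g w₀ c δ ρ μ hδ hρ hμ (fun w z hw hz => ?_)
      (fun w z s hw hz hs hs1 => ?_) (fun w z h1 h2 => ?_) (fun w z h1 h2 => ?_)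
      (ih fun p hp => he p (hp.trans (by linarith)))
    · rw [← he (g.toFun w, z) (hle z hz), ← he (g.toFun w, c) (by show c ≤ c + δ + μ; linarith)]
      exact hv w z hw hz
    · have h1 : c + s * (z - c) ≤ c + δ + μ := by
        have h2 := (abs_le.1 hz).2
        have : s * (z - c) ≤ δ := by
          rcases le_total 0 (z - c) with h3 | h3
          · nlinarith
          · nlinarith [mul_nonneg hs.le (neg_nonneg.2 h3)]
        linarith
      rw [← he (g.toFun w, z) (hle z hz), ← he (_, c + s * (z - c)) h1]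
      exact hc w z s hw hz hs hs1
    · rw [← he (w, z) (by show z ≤ c + δ + μ; linarith),
        ← he (w, c - δ) (by show c - δ ≤ c + δ + μ; linarith)]
      exact hlo w z h1 h2
    · rw [← he (w, z) h2, ← he (w, c + δ) (by show c + δ ≤ c + δ + μ; linarith)]
      exact hhi w z h1 h2

/-- the invariant of the sweep -/
def Swept (S : Set (W × ℝ)) (t : ℝ) : Prop :=
  ∃ T : ConHomeo (univ : Set (W × ℝ)) (univ : Set (W × ℝ)), LevelPres T ∧
    (∃ l : ConHomeo (univ : Set W) (univ : Set W), ∀ w z, t ≤ z → T.toFun (w, z) = (l.toFun w, z)) ∧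
    BoxStk (T.toFun ⁻¹' S) t

theorem swept_of_lt {S : Set (W × ℝ)} {t : ℝ} (h : ∀ p ∈ S, t < p.2) : Swept S t :=
  ⟨ConHomeo.refl (IsOpen.conicalSet isOpen_univ), levelPres_refl,
    ⟨ConHomeo.refl (IsOpen.conicalSet isOpen_univ), fun _ _ _ => rfl⟩, BoxStk.base t fun p hp => h p hp⟩

/-- composition with one window -/
theorem exists_comp_window {T : ConHomeo (univ : Set (W × ℝ)) (univ : Set (W × ℝ))}
    (hT : LevelPres T) {t t' : ℝ} {l : ConHomeo (univ : Set W) (univ : Set W)}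
    (hl : ∀ w z, t ≤ z → T.toFun (w, z) = (l.toFun w, z)) (htt : t ≤ t')
    (Ψ : ConHomeo (univ : Set (W × ℝ)) (univ : Set (W × ℝ))) (hΨ : LevelPres Ψ) :
    ∃ T' : ConHomeo (univ : Set (W × ℝ)) (univ : Set (W × ℝ)), LevelPres T' ∧
      (∃ l' : ConHomeo (univ : Set W) (univ : Set W),
        ∀ w z, t' ≤ z → T'.toFun (w, z) = (l'.toFun w, z)) ∧
      (∃ k : ConHomeo (univ : Set W) (univ : Set W),
        ∀ w z, t ≤ z → z ≤ t' → T'.toFun (w, z) = Ψ.toFun (k.toFun w, z)) ∧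
      ∀ p : W × ℝ, p.2 ≤ t → T'.toFun p = T.toFun p := by
  obtain ⟨G, k, l', hG, g1, g2, g3⟩ := exists_step Ψ hΨ htt
  refine ⟨T.trans G, hT.trans hG, ⟨l.trans l', fun w z hz => ?_⟩,
    ⟨l.trans k, fun w z hz hz' => ?_⟩, fun p hp => ?_⟩
  · show G.toFun (T.toFun (w, z)) = _
    rw [hl w z (htt.trans hz), g3 _ z hz]; rfl
  · show G.toFun (T.toFun (w, z)) = _
    rw [hl w z hz, g2 _ z hz hz']; rfl
  · show G.toFun (T.toFun p) = T.toFun p
    have e : T.toFun p = ((T.toFun p).1, p.2) := Prod.ext rfl (hT p)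
    rw [e, g1 _ _ hp]

/-- composition with one window -/
theorem Swept.exists_comp {S : Set (W × ℝ)} {t t' : ℝ} (h : Swept S t) (htt : t ≤ t')
    (Ψ : ConHomeo (univ : Set (W × ℝ)) (univ : Set (W × ℝ))) (hΨ : LevelPres Ψ) :
    ∃ T : ConHomeo (univ : Set (W × ℝ)) (univ : Set (W × ℝ)), LevelPres T ∧
      (∃ l : ConHomeo (univ : Set W) (univ : Set W),
        ∀ w z, t' ≤ z → T.toFun (w, z) = (l.toFun w, z)) ∧
      (∃ k : ConHomeo (univ : Set W) (univ : Set W),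
        ∀ w z, t ≤ z → z ≤ t' → T.toFun (w, z) = Ψ.toFun (k.toFun w, z)) ∧
      BoxStk (T.toFun ⁻¹' S) t := by
  obtain ⟨T, hT, ⟨l, hl⟩, hB⟩ := h
  obtain ⟨T', h1, h2, h3, h4⟩ := exists_comp_window hT hl htt Ψ hΨ
  refine ⟨T', h1, h2, h3, hB.congr fun p hp => ?_⟩
  show T.toFun p ∈ S ↔ T'.toFun p ∈ S
  rw [h4 p hp]

/-- passing a regular window -/
theorem Swept.vert {S : Set (W × ℝ)} {t t' a δ : ℝ} (h : Swept S t) (htt : t ≤ t')
    (Ψ : ConHomeo (univ : Set (W × ℝ)) (univ : Set (W × ℝ))) (hΨ : LevelPres Ψ)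
    (hv : ∀ w z, |z - a| ≤ δ → (Ψ.toFun (w, z) ∈ S ↔ (w, a) ∈ S))
    (h1 : a - δ ≤ t) (h2 : t' ≤ a + δ) : Swept S t' := by
  obtain ⟨T, hT, hl, ⟨k, hk⟩, hB⟩ := h.exists_comp htt Ψ hΨ
  refine ⟨T, hT, hl, BoxStk.vert t t' htt (fun w z hz hz' => ?_) hB⟩
  show T.toFun (w, z) ∈ S ↔ T.toFun (w, t) ∈ S
  rw [hk w z hz hz', hk w t le_rfl htt, hv _ z (abs_le.2 ⟨by linarith, by linarith⟩),
    hv _ t (abs_le.2 ⟨by linarith, by linarith⟩)]

/-- passing a regular interval -/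
theorem Swept.regular {S : Set (W × ℝ)} (hR : SpecR S) {t t' : ℝ} (h : Swept S t) (htt : t ≤ t')
    (hreg : ∀ a ∈ Icc t t', ∀ w : W, (w, a) ∈ S → FlowAt S (w, a)) : Swept S t' := by
  have hw : ∀ a : Icc t t', ∃ Ψ : ConHomeo (univ : Set (W × ℝ)) (univ : Set (W × ℝ)),
      LevelPres Ψ ∧ ∃ δ : ℝ, δ > 0 ∧ ∀ (w : W) (z : ℝ), |z - (a:ℝ)| ≤ δ →
        (Ψ.toFun (w, z) ∈ S ↔ (w, (a:ℝ)) ∈ S) := by
    intro a
    obtain ⟨Ψ, h1, _, h3⟩ := hR a (hreg a a.2)
    exact ⟨Ψ, h1, h3⟩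
  choose Ψ hΨ δ hδ hv using hw
  obtain ⟨s, hs0, hmono, ⟨m, hm⟩, hcov⟩ := exists_monotone_Icc_subset_open_cover_Icc htt
    (c := fun a : Icc t t' => ball a (δ a)) (fun a => isOpen_ball)
    (fun x _ => mem_iUnion.2 ⟨x, mem_ball_self (hδ x)⟩)
  have key : ∀ n, Swept S (s n) := by
    intro n
    induction n with
    | zero => rw [hs0]; exact h
    | succ n ih =>
      obtain ⟨a, ha⟩ := hcov n
      have hle : s n ≤ s (n + 1) := hmono (Nat.le_succ n)
      have h1 : dist (s n) a < δ a := ha (left_mem_Icc.2 hle)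
      have h2 : dist (s (n + 1)) a < δ a := ha (right_mem_Icc.2 hle)
      rw [Subtype.dist_eq, Real.dist_eq] at h1 h2
      refine ih.vert hle (Ψ a) (hΨ a) (hv a) ?_ ?_
      · have := (abs_lt.1 h1).1; linarith
      · have := (abs_lt.1 h2).2; linarith
  have := key m
  rwa [hm m le_rfl] at this

/-- passing a vertex -/
theorem exists_pass_vertex {S : Set (W × ℝ)} (hS : LocCone S) (hR : SpecR S) (hV : SpecV S)
    {c : ℝ} {w₀ : W} (hreg : ∀ w : W, w ≠ w₀ → (w, c) ∈ S → FlowAt S (w, c)) :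
    ∃ ε₀ > 0, ∀ ε : ℝ, 0 < ε → ε ≤ ε₀ →
      (∀ a : ℝ, a ≠ c → |a - c| ≤ ε → ∀ w : W, (w, a) ∈ S → FlowAt S (w, a)) →
      Swept S (c - ε) → Swept S (c + ε) := by
  obtain ⟨Ψ, hΨ, hid, δ, hδ, η, hη, hv⟩ := hV c w₀ hreg
  have hcone : LocConeAt (Ψ.toFun ⁻¹' S) (w₀, c) := by
    have e : Ψ.toFun ⁻¹' S = Ψ.symm.toFun '' S := by
      ext p
      constructor
      · intro hp; exact ⟨Ψ.toFun p, hp, Ψ.left_inv (mem_univ p)⟩
      · rintro ⟨q, hq, rfl⟩
        show Ψ.toFun (Ψ.invFun q) ∈ S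
        rwa [Ψ.right_inv (mem_univ q)]
    rw [e]
    exact hS.image Ψ.symm _
  obtain ⟨r, hr, hcone⟩ := hcone
  refine ⟨min δ (min r (η * r)), by positivity, fun ε₁ hε₁ hle hreg' hsw => ?_⟩
  -- the window below
  have hb1 : ∀ w : W, (w, c - ε₁) ∈ S → FlowAt S (w, c - ε₁) := by
    refine hreg' _ (by linarith) ?_
    rw [sub_sub_cancel_left, abs_neg, abs_of_pos hε₁]
  obtain ⟨Ψ₁, hΨ₁, -, δ₁, hδ₁, hv₁⟩ := hR _ hb1
  obtain ⟨μ₁, hμ₁, hμ₁δ, hμ₁ε⟩ : ∃ μ > 0, μ ≤ δ₁ ∧ μ < ε₁ :=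
    ⟨min δ₁ (ε₁ / 2), by positivity, min_le_left _ _, by
      have := min_le_right δ₁ (ε₁ / 2); linarith⟩
  set ε : ℝ := ε₁ - μ₁ with hεdef
  have hε : 0 < ε := by linarith
  have hle1 : ε ≤ δ := by have := hle.trans (min_le_left _ _); linarith
  have hle2 : ε ≤ r := by
    have := hle.trans ((min_le_right _ _).trans (min_le_left _ _)); linarith
  have hle3 : ε ≤ η * r := by
    have := hle.trans ((min_le_right _ _).trans (min_le_right _ _)); linarith
  -- the window above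
  have hb3 : ∀ w : W, (w, c + ε) ∈ S → FlowAt S (w, c + ε) := by
    refine hreg' _ (by linarith) ?_
    rw [add_sub_cancel_left, abs_of_pos hε]; linarith
  obtain ⟨Ψ₃, hΨ₃, -, δ₃, hδ₃, hv₃⟩ := hR _ hb3
  obtain ⟨μ₃, hμ₃, hμ₃δ, hμ₃ε⟩ : ∃ μ > 0, μ ≤ δ₃ ∧ μ ≤ μ₁ :=
    ⟨min δ₃ μ₁, by positivity, min_le_left _ _, min_le_right _ _⟩
  obtain ⟨T, hT, ⟨l, hl⟩, hB⟩ := hsw
  obtain ⟨T₁, hT₁, ⟨l₁, hl₁⟩, ⟨k₁, hk₁⟩, ha₁⟩ :=
    exists_comp_window hT hl (show c - ε₁ ≤ c - ε by linarith) Ψ₁ hΨ₁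
  obtain ⟨T₂, hT₂, ⟨l₂, hl₂⟩, ⟨k, hk⟩, ha₂⟩ :=
    exists_comp_window hT₁ hl₁ (show c - ε ≤ c + ε by linarith) Ψ hΨ
  obtain ⟨T₃, hT₃, ⟨l₃, hl₃⟩, ⟨k₃, hk₃⟩, ha₃⟩ :=
    exists_comp_window hT₂ hl₂ (show c + ε ≤ c + ε + μ₃ by linarith) Ψ₃ hΨ₃
  have hkT : ∀ w z, |z - c| ≤ ε → (T₃.toFun (k.invFun w, z) ∈ S ↔ Ψ.toFun (w, z) ∈ S) := by
    intro w z hz
    have := abs_le.1 hz
    rw [ha₃ (k.invFun w, z) (by show z ≤ c + ε; linarith), hk _ z (by linarith) (by linarith),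
      k.right_inv (mem_univ w)]
  have hlow : ∀ w z, c - ε₁ ≤ z → z ≤ c - ε →
      (T₃.toFun (w, z) ∈ S ↔ (k₁.toFun w, c - ε₁) ∈ S) := by
    intro w z h1 h2
    rw [ha₃ (w, z) (by show z ≤ c + ε; linarith), ha₂ (w, z) h2, hk₁ w z h1 h2]
    exact hv₁ _ z (abs_le.2 ⟨by linarith, by linarith⟩)
  have hhigh : ∀ w z, c + ε ≤ z → z ≤ c + ε + μ₃ →
      (T₃.toFun (w, z) ∈ S ↔ (k₃.toFun w, c + ε) ∈ S) := by
    intro w z h1 h2
    rw [hk₃ w z h1 h2]
    exact hv₃ _ z (abs_le.2 ⟨by linarith, by linarith⟩)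
  have hB0 : BoxStk (T₃.toFun ⁻¹' S) (c - ε₁) := hB.congr fun p hp => by
    show T.toFun p ∈ S ↔ T₃.toFun p ∈ S
    rw [ha₃ p (by linarith), ha₂ p (by linarith), ha₁ p hp]
  have hB1 : BoxStk (T₃.toFun ⁻¹' S) (c - ε - μ₃) := by
    refine BoxStk.vert (c - ε₁) _ (by linarith) (fun w z h1 h2 => ?_) hB0
    show T₃.toFun (w, z) ∈ S ↔ T₃.toFun (w, c - ε₁) ∈ S
    rw [hlow w z h1 (by linarith), hlow w _ le_rfl (by linarith)]
  have hρr : ε / η ≤ r := by rw [div_le_iff₀ hη]; linarith [mul_comm η r]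
  have hB2 : BoxStk (T₃.toFun ⁻¹' S) (c + ε + μ₃) := by
    refine BoxStk.box k.symm w₀ c ε (ε / η) μ₃ hε (by positivity) hμ₃
      (fun w z hw hz => ?_) (fun w z s hw hz hs hs1 => ?_) (fun w z h1 h2 => ?_)
      (fun w z h1 h2 => ?_) hB1
    · show T₃.toFun (k.invFun w, z) ∈ S ↔ T₃.toFun (k.invFun w, c) ∈ S
      rw [hkT w z hz, hkT w c (by simp [hε.le])]
      have h1 : ε ≤ η * ‖w - w₀‖ := by
        rw [div_le_iff₀ hη] at hw; linarith [mul_comm η ‖w - w₀‖]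
      rw [hv w z (hz.trans hle1) (hz.trans h1), hv w c (by simp [hδ.le]) (by simp; positivity)]
    · show T₃.toFun (k.invFun (w₀ + s • (w - w₀)), c + s * (z - c)) ∈ S ↔
        T₃.toFun (k.invFun w, z) ∈ S
      have h2 : |c + s * (z - c) - c| ≤ ε := by
        rw [add_sub_cancel_left, abs_mul, abs_of_pos hs]
        calc s * |z - c| ≤ 1 * |z - c| := by gcongr
          _ ≤ ε := by rw [one_mul]; exact hz
      rw [hkT _ _ h2, hkT w z hz]
      have h3 : ‖((w - w₀, z - c) : W × ℝ)‖ ≤ r := by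
        rw [Prod.norm_def]
        exact max_le (hw.trans hρr) (hz.trans hle2)
      have h4 := hcone (w - w₀, z - c) h3 s ⟨hs, hs1⟩
      have e1 : ((w₀, c) : W × ℝ) + s • ((w - w₀, z - c) : W × ℝ) =
          (w₀ + s • (w - w₀), c + s * (z - c)) := by
        simp
      have e2 : ((w₀, c) : W × ℝ) + ((w - w₀, z - c) : W × ℝ) = (w, z) := by simp
      rw [e1, e2] at h4
      exact h4
    · show T₃.toFun (w, z) ∈ S ↔ T₃.toFun (w, c - ε) ∈ S
      rw [hlow w z (by linarith) h2, hlow w _ (by linarith) le_rfl]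
    · show T₃.toFun (w, z) ∈ S ↔ T₃.toFun (w, c + ε) ∈ S
      rw [hhigh w z h1 h2, hhigh w _ le_rfl (by linarith)]
  have hsw3 : Swept S (c + ε + μ₃) := ⟨T₃, hT₃, ⟨l₃, hl₃⟩, hB2⟩
  refine hsw3.regular hR (by linarith) fun a ha => ?_
  refine hreg' a (by have := ha.1; intro h; linarith) ?_
  rw [abs_le]
  constructor <;> [linarith [ha.1]; linarith [ha.2]]

/-- **Sweep**: a compact locally conical set all of whose points, except at most one point on each
of finitely many levels, have a transverse direction of invariance, can be brought into layered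
form by a level preserving conical homeomorphism. -/
theorem sweep {S : Set (W × ℝ)} (hSc : IsCompact S) (hS : LocCone S) (hR : SpecR S)
    (hV : SpecV S) {H : Set ℝ} (hH : H.Finite)
    (hreg : ∀ a : ℝ, a ∉ H → ∀ w : W, (w, a) ∈ S → FlowAt S (w, a))
    (hver : ∀ a ∈ H, ∃ w₀ : W, ∀ w : W, w ≠ w₀ → (w, a) ∈ S → FlowAt S (w, a)) :
    ∃ T : ConHomeo (univ : Set (W × ℝ)) (univ : Set (W × ℝ)), LevelPres T ∧
      ∃ b : ℝ, BoxStk (T.toFun ⁻¹' S) b ∧ ∀ p ∈ T.toFun ⁻¹' S, p.2 < b := by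
  classical
  -- passing from one level to another
  have key : ∀ (n : ℕ) (t t' : ℝ), t ≤ t' → t ∉ H → t' ∉ H → (H ∩ Ioo t t').ncard ≤ n →
      Swept S t → Swept S t' := by
    intro n
    induction n with
    | zero =>
      intro t t' htt ht ht' hn hsw
      have hfin : (H ∩ Ioo t t').Finite := hH.subset inter_subset_left
      have hemp : H ∩ Ioo t t' = ∅ := (ncard_eq_zero hfin).1 (Nat.le_zero.1 hn)
      refine hsw.regular hR htt fun a ha => hreg a fun haH => ?_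
      rcases eq_or_lt_of_le ha.1 with h1 | h1
      · exact ht (h1 ▸ haH)
      · rcases eq_or_lt_of_le ha.2 with h2 | h2
        · exact ht' (h2 ▸ haH)
        · exact (hemp ▸ (⟨haH, h1, h2⟩ : a ∈ H ∩ Ioo t t') : a ∈ (∅ : Set ℝ))
    | succ n ih =>
      intro t t' htt ht ht' hn hsw
      have hfin : (H ∩ Ioo t t').Finite := hH.subset inter_subset_left
      by_cases hne : (H ∩ Ioo t t').Nonempty
      swap
      · rw [not_nonempty_iff_eq_empty] at hne
        refine ih t t' htt ht ht' ?_ hsw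
        rw [hne, ncard_empty]; exact Nat.zero_le _
      obtain ⟨a, haH, hat, hat'⟩ := hne
      obtain ⟨w₀, hw₀⟩ := hver a haH
      obtain ⟨ε₀, hε₀, hpass⟩ := exists_pass_vertex hS hR hV hw₀
      -- a small radius avoiding the other critical levels
      have hHa : (H \ {a})ᶜ ∈ 𝓝 a := by
        refine (hH.subset sdiff_subset).isClosed.isOpen_compl.mem_nhds ?_
        simp
      obtain ⟨ε₁, hε₁, hb⟩ := Metric.mem_nhds_iff.1 hHa
      obtain ⟨ε, hε, hεle⟩ : ∃ ε > 0, ε ≤ ε₀ ∧ ε < ε₁ ∧ ε < a - t ∧ ε < t' - a := by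
        refine ⟨min ε₀ (min (ε₁ / 2) (min ((a - t) / 2) ((t' - a) / 2))), ?_, ?_, ?_, ?_, ?_⟩
        · have h1 : 0 < a - t := sub_pos.2 hat
          have h2 : 0 < t' - a := sub_pos.2 hat'
          positivity
        · exact min_le_left _ _
        · have : min ε₀ (min (ε₁ / 2) (min ((a - t) / 2) ((t' - a) / 2))) ≤ ε₁ / 2 :=
            (min_le_right _ _).trans (min_le_left _ _)
          linarith
        · have : min ε₀ (min (ε₁ / 2) (min ((a - t) / 2) ((t' - a) / 2))) ≤ (a - t) / 2 :=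
            (min_le_right _ _).trans ((min_le_right _ _).trans (min_le_left _ _))
          linarith
        · have : min ε₀ (min (ε₁ / 2) (min ((a - t) / 2) ((t' - a) / 2))) ≤ (t' - a) / 2 :=
            (min_le_right _ _).trans ((min_le_right _ _).trans (min_le_right _ _))
          linarith
      obtain ⟨hle0, hlt1, hlt2, hlt3⟩ := hεle
      have hmem : ∀ x, |x - a| < ε₁ → x ∈ H → x = a := by
        intro x hx hxH
        by_contra hxa
        exact hb (by rwa [mem_ball, Real.dist_eq]) ⟨hxH, hxa⟩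
      have hm1 : a - ε ∉ H := fun h => by
        have := hmem _ (by rw [sub_sub_cancel_left, abs_neg, abs_of_pos hε]; exact hlt1) h
        linarith
      have hm2 : a + ε ∉ H := fun h => by
        have := hmem _ (by rw [add_sub_cancel_left, abs_of_pos hε]; exact hlt1) h
        linarith
      have hcard1 : (H ∩ Ioo t (a - ε)).ncard ≤ n := by
        have hss : H ∩ Ioo t (a - ε) ⊂ H ∩ Ioo t t' := by
          refine ⟨inter_subset_inter_right _ (Ioo_subset_Ioo_right (by linarith)), fun hc => ?_⟩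
          have := (hc ⟨haH, hat, hat'⟩).2.2
          linarith
        have := ncard_lt_ncard hss hfin
        omega
      have hcard2 : (H ∩ Ioo (a + ε) t').ncard ≤ n := by
        have hss : H ∩ Ioo (a + ε) t' ⊂ H ∩ Ioo t t' := by
          refine ⟨inter_subset_inter_right _ (Ioo_subset_Ioo_left (by linarith)), fun hc => ?_⟩
          have := (hc ⟨haH, hat, hat'⟩).2.1
          linarith
        have := ncard_lt_ncard hss hfin
        omega
      have s1 := ih t (a - ε) (by linarith) ht hm1 hcard1 hsw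
      have s2 := hpass ε hε hle0 (fun x hx hxε => hreg x fun hxH =>
        hx (hmem x (hxε.trans_lt hlt1) hxH)) s1
      exact ih (a + ε) t' (by linarith) hm2 ht' hcard2 s2
  -- start and end
  obtain ⟨R, hR0⟩ : ∃ R : ℝ, (∀ p ∈ S, |p.2| < R) ∧ ∀ a ∈ H, |a| < R := by
    obtain ⟨R1, h1⟩ := hSc.isBounded.exists_norm_le
    obtain ⟨R2, h2⟩ := hH.isBounded.exists_norm_le
    refine ⟨max R1 R2 + 1, fun p hp => ?_, fun a ha => ?_⟩
    · have h3 : |p.2| ≤ ‖p‖ := by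
        rw [← Real.norm_eq_abs]; exact norm_snd_le p
      have := h1 p hp
      linarith [le_max_left R1 R2]
    · have := h2 a ha
      rw [Real.norm_eq_abs] at this
      linarith [le_max_right R1 R2]
  obtain ⟨hRS, hRH⟩ := hR0
  by_cases hSne : S.Nonempty
  swap
  · rw [not_nonempty_iff_eq_empty] at hSne
    subst hSne
    exact ⟨ConHomeo.refl (IsOpen.conicalSet isOpen_univ), levelPres_refl, 0,
      BoxStk.base 0 fun p hp => (notMem_empty _ hp).elim, fun p hp => (notMem_empty _ hp).elim⟩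
  have hRpos : 0 < R := by
    obtain ⟨p, hp⟩ := hSne
    exact (abs_nonneg _).trans_lt (hRS p hp)
  have h0 : Swept S (-R) := swept_of_lt fun p hp => (abs_lt.1 (hRS p hp)).1
  have h1 : (-R) ∉ H := fun h => by
    have := hRH _ h
    rw [abs_neg, abs_of_pos hRpos] at this
    exact lt_irrefl _ this
  have h2 : R ∉ H := fun h => by
    have := hRH _ h
    rw [abs_of_pos hRpos] at this
    exact lt_irrefl _ this
  obtain ⟨T, hT, _, hB⟩ := key _ (-R) R (by linarith) h1 h2 le_rfl h0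
  refine ⟨T, hT, R, hB, fun p hp => ?_⟩
  have := (abs_lt.1 (hRS _ hp)).2
  rwa [hT p] at this

end P073.ALXG
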