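import Vale.Agent.P073.TR.Sard
import Vale.Agent.P073.ALXG.Sweep
import Vale.Agent.P073.H225.NormP

/-!
# P073: a generic direction for a compact conical set in space
-/

open Set Metric Topology Filter

namespace P073.ALXG

open P073.TR P073.H225

/-! ### Vertices -/

section vertices

variable {E : Type*} [NormedAddCommGroup E] [NormedSpace ℝ E]

/-- the points of `S` without direction of invariance -/
def verts (S : Set E) : Set E := {x | x ∈ S ∧ invF (fun _ : Unit => S) x = ⊥}

/-- a compact conical set has finitely many vertices -/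
theorem finite_verts {S : Set E} (hSc : IsCompact S) (hS : LocCone S) : (verts S).Finite := by
  have key : (verts S ∩ S).Finite := by
    refine hSc.induction_on (p := fun X => (verts S ∩ X).Finite) (by simp) ?_ ?_ ?_
    · intro X Y hXY hY
      exact hY.subset (inter_subset_inter_right _ hXY)
    · intro X Y hX hY
      rw [inter_union_distrib_left]
      exact hX.union hY
    · intro x hx
      obtain ⟨r, hr, -, hL⟩ := exists_locStr (M := fun _ : Unit => S) isOpen_univ
        (fun _ y _ => hS y) (mem_univ x)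
      refine ⟨ball x r, mem_nhdsWithin_of_mem_nhds (ball_mem_nhds x hr), ?_⟩
      refine (finite_singleton x).subset ?_
      rintro y ⟨⟨hyS, hy⟩, hyb⟩
      have hn : ‖y - x‖ < r := by rwa [mem_ball, dist_eq_norm] at hyb
      have h1 := hL.self_mem (y - x) hn
      rw [add_sub_cancel, hy, Submodule.mem_bot] at h1
      exact sub_eq_zero.1 h1
  exact key.subset fun x hx => ⟨hx, hx.1⟩

end vertices

/-- countably many non-zero vectors of space are not killed by a suitable linear function of the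
moment curve -/
theorem exists_moment {D : Set (Fin 3 → ℝ)} (hD : D.Countable) (h0 : ∀ d ∈ D, d ≠ 0) :
    ∃ t : ℝ, ∀ d ∈ D, d 0 + t * d 1 + t ^ 2 * d 2 ≠ 0 := by
  have h1 : (⋃ d ∈ D, {t : ℝ | d 0 + t * d 1 + t ^ 2 * d 2 = 0}).Countable := by
    refine hD.biUnion fun d hd => Set.Finite.countable ?_
    set p : Polynomial ℝ := Polynomial.C (d 0) + Polynomial.C (d 1) * Polynomial.X +
      Polynomial.C (d 2) * Polynomial.X ^ 2 with hp
    have hpn : p ≠ 0 := by
      intro hz
      apply h0 d hd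
      have c0 : p.coeff 0 = d 0 := by simp [hp]
      have c1 : p.coeff 1 = d 1 := by
        simp [hp, Polynomial.coeff_C]
      have c2 : p.coeff 2 = d 2 := by
        simp [hp]
      rw [hz] at c0 c1 c2
      funext i
      fin_cases i
      · simpa using c0.symm
      · simpa using c1.symm
      · simpa using c2.symm
    refine (Polynomial.finite_setOfPred_isRoot hpn).subset fun t ht => ?_
    show p.IsRoot t
    rw [Polynomial.IsRoot.def, hp]
    simp only [Polynomial.eval_add, Polynomial.eval_mul, Polynomial.eval_C, Polynomial.eval_X,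
      Polynomial.eval_pow]
    have : d 0 + t * d 1 + t ^ 2 * d 2 = 0 := ht
    linarith
  obtain ⟨t, ht⟩ : ∃ t : ℝ, t ∉ ⋃ d ∈ D, {t : ℝ | d 0 + t * d 1 + t ^ 2 * d 2 = 0} := by
    by_contra hcon
    push Not at hcon
    exact Set.not_countable_univ (α := ℝ) (h1.mono fun t _ => hcon t)
  refine ⟨t, fun d hd h => ht ?_⟩
  exact mem_iUnion₂.2 ⟨d, hd, h⟩

/-- the linear coordinates `((x₁, x₂), x₀ + t x₁ + t² x₂)` -/
noncomputable def coordL (t : ℝ) : (Fin 3 → ℝ) ≃ₗ[ℝ] (ℝ × ℝ) × ℝ where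
  toFun x := ((x 1, x 2), x 0 + t * x 1 + t ^ 2 * x 2)
  invFun q := ![q.2 - t * q.1.1 - t ^ 2 * q.1.2, q.1.1, q.1.2]
  map_add' x y := by
    simp only [Pi.add_apply, Prod.mk_add_mk]
    ext <;> (simp; try ring)
  map_smul' c x := by
    simp only [Pi.smul_apply, smul_eq_mul, RingHom.id_apply, Prod.smul_mk]
    ext <;> (simp; try ring)
  left_inv x := by
    ext i
    fin_cases i
    · simp; ring
    · simp
    · simp
  right_inv q := by
    ext
    · simp
    · simp
    · simp; ring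

theorem coordL_snd (t : ℝ) (x : Fin 3 → ℝ) : (coordL t x).2 = x 0 + t * x 1 + t ^ 2 * x 2 := rfl

/-- a continuous linear equivalence is a conical homeomorphism -/
def conOfLin {E F : Type*} [NormedAddCommGroup E] [NormedSpace ℝ E] [NormedAddCommGroup F]
    [NormedSpace ℝ F] (L : E ≃L[ℝ] F) : ConHomeo (univ : Set E) (univ : Set F) where
  toFun := L
  invFun := L.symm
  mapsTo := fun _ _ => mem_univ _
  mapsTo_inv := fun _ _ => mem_univ _
  left_inv := fun x _ => L.symm_apply_apply x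
  right_inv := fun y _ => L.apply_symm_apply y
  cont := L.continuous.continuousOn
  cont_inv := L.symm.continuous.continuousOn
  conical := conicalOn_linear (L : E →ₗ[ℝ] F) (IsOpen.conicalSet isOpen_univ)

/-- translation invariance in linear coordinates -/
theorem flowAt_image {E W : Type*} [NormedAddCommGroup E] [NormedSpace ℝ E]
    [NormedAddCommGroup W] [NormedSpace ℝ W] (L : E ≃L[ℝ] W × ℝ) {S : Set E} (hS : LocCone S)
    {x v : E} (hv : v ∈ invF (fun _ : Unit => S) x) (hLv : (L v).2 ≠ 0) :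
    FlowAt (L '' S) (L x) := by
  obtain ⟨r, hr, -, hL⟩ := exists_locStr (M := fun _ : Unit => S) isOpen_univ
    (fun _ y _ => hS y) (mem_univ x)
  set c : ℝ := (L v).2 with hc
  set v' : E := c⁻¹ • v with hv'
  have hv'm : v' ∈ invF (fun _ : Unit => S) x := Submodule.smul_mem _ _ hv
  have hLv' : L v' = ((L v').1, (1:ℝ)) := by
    refine Prod.ext rfl ?_
    rw [hv', map_smul, Prod.smul_snd, smul_eq_mul, ← hc, inv_mul_cancel₀ hLv]
  set C : ℝ := ‖(L.symm : W × ℝ →L[ℝ] E)‖ + ‖v'‖ + 1 with hC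
  have hCpos : 0 < C := by positivity
  refine ⟨(L v').1, r / (2 * C), by positivity, fun q τ hq hτ => ?_⟩
  have hmem : ∀ z : W × ℝ, z ∈ L '' S ↔ L.symm z ∈ S := by
    intro z
    constructor
    · rintro ⟨y, hy, rfl⟩; rwa [L.symm_apply_apply]
    · intro hz; exact ⟨_, hz, L.apply_symm_apply z⟩
  rw [hmem, hmem]
  set y : E := L.symm q with hy
  have e1 : L.symm (q + τ • (((L v').1, (1:ℝ)) : W × ℝ)) = x + ((y - x) + τ • v') := by
    rw [← hLv', map_add, map_smul, L.symm_apply_apply]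
    abel
  have e2 : y = x + (y - x) := by abel
  have hyx : ‖y - x‖ < r / 2 := by
    have h1 : y - x = L.symm (q - L x) := by rw [map_sub, L.symm_apply_apply]
    have h2 : ‖y - x‖ ≤ ‖(L.symm : W × ℝ →L[ℝ] E)‖ * ‖q - L x‖ := by
      rw [h1]; exact (L.symm : W × ℝ →L[ℝ] E).le_opNorm _
    have h3 : ‖(L.symm : W × ℝ →L[ℝ] E)‖ * ‖q - L x‖ ≤ C * ‖q - L x‖ := by
      gcongr
      rw [hC]
      linarith [norm_nonneg v']
    have h4 : C * ‖q - L x‖ < C * (r / (2 * C)) := by gcongr
    have h5 : C * (r / (2 * C)) = r / 2 := by field_simp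
    linarith
  have hτv : ‖τ • v'‖ < r / 2 := by
    rw [norm_smul, Real.norm_eq_abs]
    have h3 : |τ| * ‖v'‖ ≤ |τ| * C := by
      gcongr
      rw [hC]
      linarith [norm_nonneg (L.symm : W × ℝ →L[ℝ] E)]
    have h4 : |τ| * C < (r / (2 * C)) * C := by gcongr
    have h5 : (r / (2 * C)) * C = r / 2 := by field_simp
    linarith
  rw [e1]
  conv_rhs => rw [e2]
  refine hL.add_mem_iff () (by linarith) ?_ (Submodule.smul_mem _ _ hv'm)
  exact (norm_add_le _ _).trans_lt (by linarith)

/-- **Generic direction.** -/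
theorem exists_generic {S : Set (Fin 3 → ℝ)} (hSc : IsCompact S) (hS : LocCone S) :
    ∃ (L : ConHomeo (univ : Set (Fin 3 → ℝ)) (univ : Set ((ℝ × ℝ) × ℝ))) (H : Set ℝ), H.Finite ∧
      (∀ a : ℝ, a ∉ H → ∀ w : ℝ × ℝ, (w, a) ∈ L.toFun '' S → FlowAt (L.toFun '' S) (w, a)) ∧
      (∀ a ∈ H, ∃ w₀ : ℝ × ℝ, ∀ w : ℝ × ℝ, w ≠ w₀ → (w, a) ∈ L.toFun '' S →
        FlowAt (L.toFun '' S) (w, a)) := by
  classical
  have hfin := finite_verts hSc hS
  -- directions
  obtain ⟨T, hT, hTP, hTc⟩ := exists_countable_centres (M := fun _ : Unit => S) isOpen_univ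
    (fun _ y _ => hS y) (fun x => invF (fun _ : Unit => S) x ≠ ⊥)
  have hv : ∀ x ∈ T, ∃ v ∈ invF (fun _ : Unit => S) x, v ≠ 0 := fun x hx =>
    (Submodule.ne_bot_iff _).1 (hTP x hx).2
  choose! v hvm hv0 using hv
  set D : Set (Fin 3 → ℝ) := v '' T ∪ ((fun p : (Fin 3 → ℝ) × (Fin 3 → ℝ) => p.1 - p.2) ''
    (verts S ×ˢ verts S)) \ {0} with hD
  have hDc : D.Countable := (hT.image v).union
    (((hfin.prod hfin).image _).countable.mono sdiff_subset)
  have hD0 : ∀ d ∈ D, d ≠ 0 := by
    rintro d (⟨x, hx, rfl⟩ | ⟨-, hd⟩)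
    · exact hv0 x hx
    · exact hd
  obtain ⟨t, ht⟩ := exists_moment hDc hD0
  set L : (Fin 3 → ℝ) ≃L[ℝ] (ℝ × ℝ) × ℝ := (coordL t).toContinuousLinearEquiv with hL
  have hLs : ∀ x, (L x).2 = x 0 + t * x 1 + t ^ 2 * x 2 := fun x => rfl
  -- flow at non-vertices
  have hflow : ∀ x ∈ S, x ∉ verts S → FlowAt (L '' S) (L x) := by
    intro x hx hxv
    have hne : invF (fun _ : Unit => S) x ≠ ⊥ := fun h => hxv ⟨hx, h⟩
    obtain ⟨y, hyT, -, hinv⟩ := hTc x (mem_univ _) hne
    refine flowAt_image L hS (v := v y) (by rw [hinv]; exact hvm y hyT) ?_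
    rw [hLs]
    exact ht _ (Or.inl ⟨y, hyT, rfl⟩)
  refine ⟨conOfLin L, (fun x => (L x).2) '' verts S, hfin.image _, fun a ha w hw => ?_,
    fun a ha => ?_⟩
  · obtain ⟨x, hx, hxw⟩ := hw
    change L x = (w, a) at hxw
    have : x ∉ verts S := fun h => ha ⟨x, h, by show (L x).2 = a; rw [hxw]⟩
    have := hflow x hx this
    rwa [hxw] at this
  · obtain ⟨x₀, hx₀, hxa⟩ := ha
    change (L x₀).2 = a at hxa
    refine ⟨(L x₀).1, fun w hw hwS => ?_⟩
    obtain ⟨x, hx, hxw⟩ := hwS
    change L x = (w, a) at hxw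
    have hxne : x ≠ x₀ := by
      rintro rfl
      apply hw
      rw [hxw]
    have : x ∉ verts S := by
      intro h
      have h1 : x - x₀ ∈ D := Or.inr ⟨⟨(x, x₀), ⟨h, hx₀⟩, rfl⟩, sub_ne_zero.2 hxne⟩
      apply ht _ h1
      rw [← hLs, map_sub, Prod.snd_sub, hxw, hxa]
      simp
    have := hflow x hx this
    rwa [hxw] at this

/-- the preimage under an ambient homeomorphism is the image under the inverse -/
theorem preimage_eq_image {E F : Type*} [NormedAddCommGroup E] [NormedSpace ℝ E]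
    [NormedAddCommGroup F] [NormedSpace ℝ F] (T : ConHomeo (univ : Set E) (univ : Set F))
    (S : Set F) : T.toFun ⁻¹' S = T.invFun '' S := by
  ext p
  constructor
  · intro hp; exact ⟨T.toFun p, hp, T.left_inv (mem_univ p)⟩
  · rintro ⟨q, hq, rfl⟩
    show T.toFun (T.invFun q) ∈ S
    rwa [T.right_inv (mem_univ q)]

/-- every compact conical set in space is carried to a layered set by an ambient conical
homeomorphism -/
theorem exists_boxStk {S : Set (Fin 3 → ℝ)} (hSc : IsCompact S) (hS : LocCone S) :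
    ∃ (Φ : ConHomeo (univ : Set (Fin 3 → ℝ)) (univ : Set ((ℝ × ℝ) × ℝ))) (b : ℝ),
      BoxStk (Φ.toFun '' S) b ∧ ∀ p ∈ Φ.toFun '' S, p.2 < b := by
  obtain ⟨L, H, hH, h1, h2⟩ := exists_generic hSc hS
  have hSc' : IsCompact (L.toFun '' S) := hSc.image_of_continuousOn (L.cont.mono (subset_univ _))
  have hS' : LocCone (L.toFun '' S) := hS.image L
  obtain ⟨T, -, b, hB, hb⟩ := sweep hSc' hS' (specR conicalOn_norm_P hSc')
    (specV conicalOn_norm_P hSc' hS') hH h1 h2
  have e : T.toFun ⁻¹' (L.toFun '' S) = (L.trans T.symm).toFun '' S := by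
    rw [preimage_eq_image, image_image]; rfl
  rw [e] at hB hb
  exact ⟨L.trans T.symm, b, hB, hb⟩

end P073.ALXG
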