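import Vale.Agent.P073.ALXG.Generic
import Vale.Agent.P073.H248.Spec
import Vale.Agent.P073.H240.Stack

/-!
# P073, block ALX-RED: from layered spheres with boxes to stack spheres

The boxes are replaced one after the other (`SpecOneBox`), then the levels and the circles are
listed.
-/

open Set Metric Topology Filter

namespace P073.ALXG

open P073.ALX (P V slice AmbStd)
open P073.H240 (Share StackR Gam)
open P073.H248 (SpecSlab)

/-! ### Sharing -/

theorem Share.symm {c c' : Set P} (h : Share c c') : Share c' c := by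
  rintro y ⟨h1, h2⟩
  obtain ⟨v, hv, H⟩ := h y ⟨h2, h1⟩
  exact ⟨v, hv, fun t ht => (H t ht).symm⟩

/-- a set with a direction at each point shares with itself -/
theorem share_self {Γ : Set P} (hcone : ∀ w ∈ Γ, LocConeAt Γ w)
    (hd : ∀ w ∈ Γ, (TR.dirs Γ w).Nonempty) : Share Γ Γ := by
  rintro y ⟨hy, -⟩
  obtain ⟨u, hu1, hu2⟩ := hd y hy
  obtain ⟨r, hr, H⟩ := (hcone y hy).exists_tc
  have hu0 : u ≠ 0 := by
    rintro rfl; rw [norm_zero] at hu1; exact zero_ne_one hu1
  refine ⟨r • u, smul_ne_zero hr.ne' hu0, fun t ht => ?_⟩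
  have hmem : y + t • r • u ∈ Γ := by
    rcases eq_or_lt_of_le ht.1 with h0 | h0
    · rw [← h0, zero_smul, add_zero]; exact hy
    · rw [H, smul_smul, TR.tc_smul_iff (by positivity)]
      · exact hu2
      · rw [norm_smul, norm_smul, hu1, mul_one, Real.norm_of_nonneg ht.1, Real.norm_of_nonneg hr.le]
        nlinarith [ht.2]
  exact ⟨hmem, hmem⟩

/-- a preconnected subset of a finite disjoint union of closed sets is contained in any piece which
it meets -/
theorem subset_piece {X : Type*} [TopologicalSpace X] {F : Finset (Set X)}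
    (hcl : ∀ c ∈ F, IsClosed c) (hd : ∀ c ∈ F, ∀ c' ∈ F, c ≠ c' → Disjoint c c') {K : Set X}
    (hK : IsPreconnected K) (hKF : K ⊆ ⋃ c ∈ F, c) {c : Set X} (hc : c ∈ F)
    (hne : (K ∩ c).Nonempty) : K ⊆ c := by
  classical
  rw [isPreconnected_iff_subset_of_disjoint_closed] at hK
  have hv : IsClosed (⋃ c' ∈ F.erase c, c') :=
    (F.erase c).finite_toSet.isClosed_biUnion fun c' hc' => hcl c' (Finset.mem_of_mem_erase hc')
  have hdis : Disjoint c (⋃ c' ∈ F.erase c, c') := by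
    rw [disjoint_iUnion₂_right]
    intro c' hc'
    exact hd c hc c' (Finset.mem_of_mem_erase hc') (Finset.ne_of_mem_erase hc').symm
  have hcov : K ⊆ c ∪ ⋃ c' ∈ F.erase c, c' := by
    intro x hx
    obtain ⟨c', hc', hx'⟩ := mem_iUnion₂.1 (hKF hx)
    by_cases h : c' = c
    · left; rwa [← h]
    · right; exact mem_iUnion₂.2 ⟨c', Finset.mem_erase.2 ⟨h, hc'⟩, hx'⟩
  rcases hK c _ (hcl c hc) hv hcov (by rw [hdis.inter_eq, inter_empty]) with h | h
  · exact h
  · exfalso
    obtain ⟨x, hxK, hxc⟩ := hne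
    exact disjoint_left.1 hdis hxc (h hxK)

/-- sharing passes to the pieces -/
theorem Share.piece {F F' : Finset (Set P)} (hcl : ∀ c ∈ F, IsClosed c)
    (hd : ∀ c ∈ F, ∀ c' ∈ F, c ≠ c' → Disjoint c c') (hcl' : ∀ c ∈ F', IsClosed c)
    (hd' : ∀ c ∈ F', ∀ c' ∈ F', c ≠ c' → Disjoint c c')
    (h : Share (⋃ c ∈ F, c) (⋃ c ∈ F', c)) {c c' : Set P} (hc : c ∈ F) (hc' : c' ∈ F') :
    Share c c' := by
  rintro y ⟨hy, hy'⟩
  obtain ⟨v, hv, H⟩ := h y ⟨mem_iUnion₂.2 ⟨c, hc, hy⟩, mem_iUnion₂.2 ⟨c', hc', hy'⟩⟩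
  refine ⟨v, hv, ?_⟩
  set K : Set P := (fun t : ℝ => y + t • v) '' Icc 0 1 with hK
  have hKc : IsPreconnected K := isPreconnected_Icc.image _ (by fun_prop)
  have hyK : y ∈ K := ⟨0, ⟨le_rfl, zero_le_one⟩, by simp⟩
  have h1 : K ⊆ c := subset_piece hcl hd hKc (by
    rintro _ ⟨t, ht, rfl⟩; exact (H t ht).1) hc ⟨y, hyK, hy⟩
  have h2 : K ⊆ c' := subset_piece hcl' hd' hKc (by
    rintro _ ⟨t, ht, rfl⟩; exact (H t ht).2) hc' ⟨y, hyK, hy'⟩
  exact fun t ht => ⟨h1 ⟨t, ht, rfl⟩, h2 ⟨t, ht, rfl⟩⟩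

/-! ### One box -/

/-- the result of the replacement of one box -/
structure OneBoxOut (S : Set V) (c δ : ℝ) (S' : Set V) (M : Set P) : Prop where
  sphere : ConSphere 2 S'
  std : AmbStd S' → AmbStd S
  off : ∀ p : V, δ < |p.2 - c| → (p ∈ S' ↔ p ∈ S)
  mid : ∀ (w : P) (z : ℝ), |z - c| < δ → ((w, z) ∈ S' ↔ w ∈ M)
  lo : Share (slice S (c - δ)) M
  hi : Share M (slice S (c + δ))

/-- **replacement of one box** -/
def SpecOneBox : Prop :=
  ∀ (S : Set V) (g : ConHomeo (univ : Set P) (univ : Set P)) (w₀ : P) (c δ ρ μ : ℝ),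
    ConSphere 2 S → 0 < δ → 0 < ρ → 0 < μ →
    (∀ w z, ρ ≤ ‖w - w₀‖ → |z - c| ≤ δ → ((g.toFun w, z) ∈ S ↔ (g.toFun w, c) ∈ S)) →
    (∀ w z s, ‖w - w₀‖ ≤ ρ → |z - c| ≤ δ → 0 < s → s ≤ 1 →
      ((g.toFun (w₀ + s • (w - w₀)), c + s * (z - c)) ∈ S ↔ (g.toFun w, z) ∈ S)) →
    (∀ w z, c - δ - μ ≤ z → z ≤ c - δ → ((w, z) ∈ S ↔ (w, c - δ) ∈ S)) →
    (∀ w z, c + δ ≤ z → z ≤ c + δ + μ → ((w, z) ∈ S ↔ (w, c + δ) ∈ S)) →
    ∃ (S' : Set V) (M : Set P), OneBoxOut S c δ S' M

/-! ### Layers -/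

/-- the layered sets without boxes; the index `Γ` is the pattern just below the height `t` -/
inductive Lay (S : Set V) : ℝ → Set P → Prop
  | base (t : ℝ) (h : ∀ p ∈ S, t ≤ p.2) : Lay S t ∅
  | step (a b : ℝ) (Γ' Γ : Set P) (hab : a < b)
      (hv : ∀ (w : P) (z : ℝ), a < z → z < b → ((w, z) ∈ S ↔ w ∈ Γ)) (hs : Share Γ' Γ)
      (H : Lay S a Γ') : Lay S b Γ

theorem Lay.congr {S S' : Set V} {t : ℝ} {Γ : Set P} (h : Lay S t Γ)
    (he : ∀ p : V, p.2 < t → (p ∈ S ↔ p ∈ S')) : Lay S' t Γ := by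
  induction h with
  | base t h =>
    refine Lay.base t fun p hp => ?_
    by_contra hlt
    push Not at hlt
    exact absurd (h p ((he p hlt).2 hp)) (not_le.2 hlt)
  | step a b Γ' Γ hab hv hs H ih =>
    refine Lay.step a b Γ' Γ hab (fun w z h1 h2 => ?_) hs (ih fun p hp => he p (hp.trans hab))
    rw [← he (w, z) h2]
    exact hv w z h1 h2

/-- **elimination of the boxes** -/
theorem exists_lay (hOne : SpecOneBox) (hSlab : SpecSlab) {S : Set V} (hS : ConSphere 2 S) {t : ℝ}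
    (h : BoxStk S t) : ∃ S' : Set V, ConSphere 2 S' ∧ (AmbStd S' → AmbStd S) ∧
      (∀ p : V, t ≤ p.2 → (p ∈ S' ↔ p ∈ S)) ∧ Lay S' t (slice S t) := by
  -- a vertical layer
  have hvert : ∀ (S' : Set V) (a b : ℝ) (Γ : Set P), ConSphere 2 S' → a < b →
      (∀ (w : P) (z : ℝ), a < z → z < b → ((w, z) ∈ S' ↔ w ∈ Γ)) → Share Γ Γ := by
    intro S' a b Γ hS' hab hv
    obtain ⟨-, h2, h3, -⟩ := hSlab S' a b Γ hS' hab hv
    refine share_self h2 fun w hw => ?_
    have := h3 w hw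
    exact nonempty_of_ncard_ne_zero (by omega)
  induction h with
  | base t h =>
    refine ⟨S, hS, id, fun _ _ => Iff.rfl, ?_⟩
    have : slice S t = ∅ := by
      rw [eq_empty_iff_forall_notMem]
      intro w hw
      exact lt_irrefl _ (h (w, t) hw)
    rw [this]
    exact Lay.base t fun p hp => (h p hp).le
  | vert a b hab h H ih =>
    obtain ⟨S', hS', hstd, hag, hlay⟩ := ih
    rcases eq_or_lt_of_le hab with heq | hlt
    · subst heq
      exact ⟨S', hS', hstd, hag, hlay⟩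
    · have hsl : slice S b = slice S a := by
        ext w; exact h w b hab le_rfl
      have hv : ∀ (w : P) (z : ℝ), a < z → z < b → ((w, z) ∈ S' ↔ w ∈ slice S a) := by
        intro w z h1 h2
        rw [hag (w, z) h1.le]
        exact h w z h1.le h2.le
      refine ⟨S', hS', hstd, fun p hp => hag p (hab.trans hp), ?_⟩
      rw [hsl]
      exact Lay.step a b _ _ hlt hv (hvert S' a b _ hS' hlt hv) hlay
  | box g w₀ c δ ρ μ hδ hρ hμ hv hc hlo hhi H ih =>
    obtain ⟨S₁, hS₁, hstd₁, hag₁, hlay₁⟩ := ih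
    have hin : ∀ (w : P) (z : ℝ), |z - c| ≤ δ → ((w, z) ∈ S₁ ↔ (w, z) ∈ S) := by
      intro w z hz
      refine hag₁ (w, z) ?_
      show c - δ - μ ≤ z
      have := (abs_le.1 hz).1
      linarith
    have hcc : |c - c| ≤ δ := by simp [hδ.le]
    have hin2 : ∀ (w : P) (z : ℝ), c - δ - μ ≤ z → ((w, z) ∈ S₁ ↔ (w, z) ∈ S) :=
      fun w z hz => hag₁ (w, z) hz
    obtain ⟨S₂, M, hout⟩ := hOne S₁ g w₀ c δ ρ μ hS₁ hδ hρ hμ
      (fun w z hw hz => by rw [hin _ z hz, hin _ c hcc]; exact hv w z hw hz)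
      (fun w z s hw hz hs hs1 => by
        have h2 : |c + s * (z - c) - c| ≤ δ := by
          rw [add_sub_cancel_left, abs_mul, abs_of_pos hs]
          calc s * |z - c| ≤ 1 * |z - c| := by gcongr
            _ ≤ δ := by rw [one_mul]; exact hz
        rw [hin _ _ h2, hin _ z hz]; exact hc w z s hw hz hs hs1)
      (fun w z h1 h2 => by
        rw [hin2 w z h1, hin2 w (c - δ) (by linarith)]; exact hlo w z h1 h2)
      (fun w z h1 h2 => by
        rw [hin2 w z (by linarith), hin2 w (c + δ) (by linarith)]; exact hhi w z h1 h2)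
    have hsl1 : slice S₁ (c - δ) = slice S (c - δ) := by
      ext w; exact hin2 w _ (by linarith)
    have hsl2 : slice S₁ (c + δ) = slice S (c + δ) := by
      ext w; exact hin2 w _ (by linarith)
    have hsl3 : slice S (c - δ - μ) = slice S (c - δ) := by
      ext w; exact hlo w _ le_rfl (by linarith)
    have hsl4 : slice S (c + δ + μ) = slice S (c + δ) := by
      ext w; exact hhi w _ (by linarith) le_rfl
    have hslo := hout.lo
    have hshi := hout.hi
    rw [hsl1] at hslo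
    rw [hsl2] at hshi
    have hv1 : ∀ (w : P) (z : ℝ), c - δ - μ < z → z < c - δ → ((w, z) ∈ S₂ ↔ w ∈ slice S (c - δ)) := by
      intro w z h1 h2
      rw [hout.off (w, z) (by show δ < |z - c|; rw [lt_abs]; right; linarith), hin2 w z h1.le]
      exact hlo w z h1.le h2.le
    have hv3 : ∀ (w : P) (z : ℝ), c + δ < z → z < c + δ + μ → ((w, z) ∈ S₂ ↔ w ∈ slice S (c + δ)) := by
      intro w z h1 h2
      rw [hout.off (w, z) (by show δ < |z - c|; rw [lt_abs]; left; linarith),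
        hin2 w z (by linarith)]
      exact hhi w z h1.le h2.le
    have hL0 : Lay S₂ (c - δ - μ) (slice S (c - δ)) := by
      rw [hsl3] at hlay₁
      refine hlay₁.congr fun p hp => ?_
      rw [hout.off p (by rw [lt_abs]; right; linarith)]
    have hL1 : Lay S₂ (c - δ) (slice S (c - δ)) :=
      Lay.step _ _ _ _ (by linarith) hv1 (hvert S₂ _ _ _ hout.sphere (by linarith) hv1) hL0
    have hL2 : Lay S₂ (c + δ) M := by
      refine Lay.step (c - δ) _ _ _ (by linarith) (fun w z h1 h2 => ?_) hslo hL1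
      exact hout.mid w z (abs_lt.2 ⟨by linarith, by linarith⟩)
    have hL3 : Lay S₂ (c + δ + μ) (slice S (c + δ)) :=
      Lay.step _ _ _ _ (by linarith) hv3 hshi hL2
    refine ⟨S₂, hout.sphere, fun h => hstd₁ (hout.std h), fun p hp => ?_, hsl4 ▸ hL3⟩
    rw [hout.off p (by rw [lt_abs]; left; linarith), hag₁ p (by linarith)]

/-! ### Levels and circles -/

theorem exists_levels (hSlab : SpecSlab) {S : Set V} (hS : ConSphere 2 S) {t : ℝ} {Γ : Set P}
    (h : Lay S t Γ) : ∃ (s : ℕ → ℝ) (n : ℕ) (T : Finset (ℕ × Set P)) (F : Finset (Set P)),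
      StrictMono s ∧ s n = t ∧ (∀ w ∈ T, w.1 ≠ 0) ∧ (∀ w ∈ T, w.1 ≤ n) ∧
      (∀ w ∈ T, IsCircle w.2) ∧
      (∀ w ∈ T, ∀ w' ∈ T, w.1 = w'.1 → w.2 ≠ w'.2 → Disjoint w.2 w'.2) ∧
      (∀ x ∈ S, x.2 < t → s 0 ≤ x.2) ∧
      (∀ j < n, ∀ x : V, s j < x.2 → x.2 < s (j + 1) → (x ∈ S ↔ x.1 ∈ Gam T (j + 1))) ∧
      (∀ w ∈ T, ∀ w' ∈ T, w'.1 = w.1 + 1 → Share w.2 w'.2) ∧
      (∀ c ∈ F, IsCircle c) ∧ (∀ c ∈ F, ∀ c' ∈ F, c ≠ c' → Disjoint c c') ∧
      (Γ = ⋃ c ∈ F, c) ∧ (∀ w ∈ T, w.1 = n → w.2 ∈ F) := by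
  classical
  induction h with
  | base t h =>
    refine ⟨fun j => t + j, 0, ∅, ∅, ?_, by simp, by simp, by simp, by simp, by simp, ?_, ?_,
      by simp, by simp, by simp, by simp, by simp⟩
    · intro i j hij
      show t + (i:ℝ) < t + (j:ℝ)
      have : (i:ℝ) < j := by exact_mod_cast hij
      linarith
    · intro x hx hxt
      exact absurd (h x hx) (not_le.2 hxt)
    · intro j hj
      exact absurd hj (Nat.not_lt_zero _)
  | step a b Γ' Γ hab hv hs H ih =>
    obtain ⟨s, n, T, F, hmono, hsn, hT0, hTn, hcirc, hdisj, hlow, hslab, hrel, hFc, hFd, hFU,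
      hTF⟩ := ih
    obtain ⟨-, -, -, F', hFc', hFd', hFU'⟩ := hSlab S a b Γ hS hab hv
    set s' : ℕ → ℝ := fun j => if j ≤ n then s j else b + ((j:ℝ) - (n + 1)) with hs'
    have e1 : ∀ j, j ≤ n → s' j = s j := fun j hj => if_pos hj
    have e2 : ∀ j, n < j → s' j = b + ((j:ℝ) - (n + 1)) := fun j hj => if_neg (not_le.2 hj)
    have e3 : s' (n + 1) = b := by
      rw [e2 _ (Nat.lt_succ_self n)]; push_cast; ring
    set T' : Finset (ℕ × Set P) := T ∪ F'.image (fun c => (n + 1, c)) with hT'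
    have hmT' : ∀ w, w ∈ T' ↔ w ∈ T ∨ (w.1 = n + 1 ∧ w.2 ∈ F') := by
      intro w
      rw [hT', Finset.mem_union, Finset.mem_image]
      constructor
      · rintro (h | ⟨c, hc, rfl⟩)
        · exact Or.inl h
        · exact Or.inr ⟨rfl, hc⟩
      · rintro (h | ⟨h1, h2⟩)
        · exact Or.inl h
        · exact Or.inr ⟨w.2, h2, Prod.ext h1.symm rfl⟩
    have hGam : ∀ j, j ≤ n → Gam T' j = Gam T j := by
      intro j hj
      ext p
      constructor
      · rintro ⟨w, hw, hwj, hp⟩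
        rcases (hmT' w).1 hw with h | ⟨h, -⟩
        · exact ⟨w, h, hwj, hp⟩
        · omega
      · rintro ⟨w, hw, hwj, hp⟩
        exact ⟨w, (hmT' w).2 (Or.inl hw), hwj, hp⟩
    refine ⟨s', n + 1, T', F', ?_, e3, ?_, ?_, ?_, ?_, ?_, ?_, ?_, hFc', hFd', hFU', ?_⟩
    · -- strictly monotone
      apply strictMono_nat_of_lt_succ
      intro j
      rcases lt_trichotomy j n with h | h | h
      · rw [e1 j h.le, e1 (j + 1) h]; exact hmono (Nat.lt_succ_self j)
      · rw [h, e3, e1 n le_rfl, hsn]; exact hab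
      · rw [e2 j h, e2 (j + 1) (by omega)]; push_cast; linarith
    · intro w hw
      rcases (hmT' w).1 hw with h | ⟨h, -⟩
      · exact hT0 w h
      · omega
    · intro w hw
      rcases (hmT' w).1 hw with h | ⟨h, -⟩
      · exact (hTn w h).trans (Nat.le_succ n)
      · omega
    · intro w hw
      rcases (hmT' w).1 hw with h | ⟨-, h⟩
      · exact hcirc w h
      · exact hFc' _ h
    · intro w hw w' hw' he hne
      rcases (hmT' w).1 hw with h | ⟨h, h2⟩
      · rcases (hmT' w').1 hw' with h' | ⟨h', -⟩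
        · exact hdisj w h w' h' he hne
        · have := hTn w h; omega
      · rcases (hmT' w').1 hw' with h' | ⟨-, h2'⟩
        · have := hTn w' h'; omega
        · exact hFd' _ h2 _ h2' hne
    · -- low
      intro x hx hxb
      rw [e1 0 (Nat.zero_le _)]
      by_cases hxa : x.2 < a
      · exact hlow x hx hxa
      · push Not at hxa
        calc s 0 ≤ s n := hmono.monotone (Nat.zero_le n)
          _ = a := hsn
          _ ≤ x.2 := hxa
    · -- slab
      intro j hj x h1 h2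
      rcases Nat.lt_or_ge j n with h | h
      · rw [e1 j h.le] at h1
        rw [e1 (j + 1) h] at h2
        rw [hGam (j + 1) h]
        exact hslab j h x h1 h2
      · have hjn : j = n := by omega
        subst hjn
        rw [e1 j le_rfl, hsn] at h1
        rw [e3] at h2
        have := hv x.1 x.2 h1 h2
        rw [show ((x.1, x.2) : V) = x from rfl] at this
        rw [this, hFU']
        constructor
        · intro hx
          obtain ⟨c, hc, hxc⟩ := mem_iUnion₂.1 hx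
          exact ⟨(j + 1, c), (hmT' _).2 (Or.inr ⟨rfl, hc⟩), rfl, hxc⟩
        · rintro ⟨w, hw, hwj, hxw⟩
          rcases (hmT' w).1 hw with h' | ⟨-, h'⟩
          · have := hTn w h'; omega
          · exact mem_iUnion₂.2 ⟨w.2, h', hxw⟩
    · -- relation
      intro w hw w' hw' he
      rcases (hmT' w).1 hw with h | ⟨h, h2⟩
      · rcases (hmT' w').1 hw' with h' | ⟨h', h2'⟩
        · exact hrel w h w' h' he
        · rw [hFU, hFU'] at hs
          refine Share.piece (fun c hc => (hFc c hc).isCompact.isClosed) hFd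
            (fun c hc => (hFc' c hc).isCompact.isClosed) hFd' hs (hTF w h (by omega)) h2'
      · rcases (hmT' w').1 hw' with h' | ⟨h', -⟩
        · have := hTn w' h'; omega
        · omega
    · intro w hw hwn
      rcases (hmT' w).1 hw with h | ⟨-, h⟩
      · have := hTn w h; omega
      · exact h

/-- a layered sphere is a stack sphere -/
theorem exists_stackR (hSlab : SpecSlab) {S : Set V} (hS : ConSphere 2 S) {t : ℝ} {Γ : Set P}
    (h : Lay S t Γ) (ht : ∀ p ∈ S, p.2 < t) :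
    ∃ (s : ℕ → ℝ) (T : Finset (ℕ × Set P)), StackR Share s T S := by
  obtain ⟨s, n, T, F, hmono, hsn, hT0, hTn, hcirc, hdisj, hlow, hslab, hrel, -⟩ :=
    exists_levels hSlab hS h
  refine ⟨s, T, hmono, hS, hT0, hcirc, hdisj, fun x hx => hlow x hx (ht x hx),
    fun x hx => ⟨n, hsn ▸ ht x hx⟩, fun j x h1 h2 => ?_, hrel⟩
  rcases Nat.lt_or_ge j n with hj | hj
  · exact hslab j hj x h1 h2
  · constructor
    · intro hx
      exfalso
      have h3 : s n ≤ s j := hmono.monotone hj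
      have h4 := ht x hx
      rw [← hsn] at h4
      exact absurd (h4.trans_le h3) (not_lt.2 h1.le)
    · rintro ⟨w, hw, hwj, -⟩
      have := hTn w hw
      omega

/-- **RED**: every conical sphere is reduced to a stack sphere. -/
theorem exists_reduction (hOne : SpecOneBox) (hSlab : SpecSlab) {S : Set (Fin 3 → ℝ)}
    (hS : ConSphere 2 S) : ∃ (S' : Set V) (s : ℕ → ℝ) (T : Finset (ℕ × Set P)),
      StackR Share s T S' ∧ (AmbStd S' → AmbStd S) := by
  have hSc : IsCompact S := by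
    obtain ⟨φ⟩ := hS
    exact φ.symm.isCompact_right (isCompact_sphere _ _)
  have hcone : LocCone S := by
    obtain ⟨φ⟩ := hS
    exact LocCone.of_conHomeo (isCompact_sphere _ _) (locCone_sphere_pi 3) φ.symm
  obtain ⟨Φ, b, hB, hb⟩ := exists_boxStk hSc hcone
  have hS₁ : ConSphere 2 (Φ.toFun '' S) := by
    obtain ⟨φ⟩ := hS
    exact ⟨(Φ.restr φ.conicalSet_left (subset_univ _)).symm.trans φ⟩
  obtain ⟨S', hS', hstd, hag, hlay⟩ := exists_lay hOne hSlab hS₁ hB
  obtain ⟨s, T, hst⟩ := exists_stackR hSlab hS' hlay fun p hp => by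
    by_contra hlt
    push Not at hlt
    exact absurd (hb p ((hag p hlt).1 hp)) (not_lt.2 hlt)
  refine ⟨S', s, T, hst, fun h => ?_⟩
  obtain ⟨Ψ, hΨ⟩ := hstd h
  exact ⟨Φ.trans Ψ, by rw [← hΨ, image_image]; rfl⟩

end P073.ALXG
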