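import Vale.Agent.P073.ConHomeo

/-!
# P073, ALXG: the ambient push lemma (double pyramid)
-/

open Set Metric Topology Filter

namespace P073

namespace Push

/-- the model of the three dimensional space -/
abbrev M3 := (ℝ × ℝ) × ℝ

/-- the gauge of the double pyramid -/
noncomputable def gN (p : M3) : ℝ := ‖p.1‖ + |p.2|

/-- the standard sphere -/
def SS : Set M3 := {p | gN p = 1}
/-- the standard ball -/
def BB : Set M3 := {p | gN p ≤ 1}
/-- the upper half of the standard sphere -/
def SSp : Set M3 := {p | gN p = 1 ∧ 0 ≤ p.2}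
/-- the lower half of the standard sphere -/
def SSm : Set M3 := {p | gN p = 1 ∧ p.2 ≤ 0}
/-- the equator -/
def EQ : Set M3 := {p | ‖p.1‖ = 1 ∧ p.2 = 0}
/-- the standard square -/
def QQ : Set (ℝ × ℝ) := {y | ‖y‖ ≤ 1}
/-- the boundary of the standard square -/
def dQ : Set (ℝ × ℝ) := {y | ‖y‖ = 1}

theorem continuous_gN : Continuous gN := by
  unfold gN; fun_prop

theorem gN_nonneg (p : M3) : 0 ≤ gN p := by
  unfold gN; positivity

theorem gN_zero : gN 0 = 0 := by simp [gN]

theorem gN_smul (s : ℝ) (p : M3) : gN (s • p) = |s| * gN p := by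
  unfold gN
  simp only [Prod.smul_fst, Prod.smul_snd, norm_smul, Real.norm_eq_abs, smul_eq_mul, abs_mul]
  ring

theorem gN_eq_zero {p : M3} : gN p = 0 ↔ p = 0 := by
  unfold gN
  constructor
  · intro h
    have h1 : ‖p.1‖ = 0 := le_antisymm (by linarith [abs_nonneg p.2]) (norm_nonneg _)
    have h2 : |p.2| = 0 := le_antisymm (by linarith [norm_nonneg p.1]) (abs_nonneg _)
    exact Prod.ext (norm_eq_zero.1 h1) (abs_eq_zero.1 h2)
  · rintro rfl; simp

theorem gN_pos {p : M3} (hp : p ≠ 0) : 0 < gN p :=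
  lt_of_le_of_ne (gN_nonneg p) (fun h => hp (gN_eq_zero.1 h.symm))

theorem norm_le_gN (p : M3) : ‖p‖ ≤ gN p := by
  rw [Prod.norm_def]
  unfold gN
  refine max_le ?_ ?_
  · linarith [abs_nonneg p.2]
  · rw [Real.norm_eq_abs]; linarith [norm_nonneg p.1]

theorem isClosed_SS : IsClosed SS := isClosed_eq continuous_gN continuous_const
theorem isClosed_BB : IsClosed BB := isClosed_le continuous_gN continuous_const
theorem isClosed_SSp : IsClosed SSp :=
  isClosed_SS.inter (isClosed_le continuous_const continuous_snd)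
theorem isClosed_SSm : IsClosed SSm :=
  isClosed_SS.inter (isClosed_le continuous_snd continuous_const)

theorem isCompact_BB : IsCompact BB := by
  refine Metric.isCompact_of_isClosed_isBounded isClosed_BB ?_
  refine (Metric.isBounded_closedBall (x := (0 : M3)) (r := 1)).subset fun p hp => ?_
  rw [mem_closedBall, dist_zero_right]
  exact (norm_le_gN p).trans hp

theorem isCompact_SS : IsCompact SS :=
  isCompact_BB.of_isClosed_subset isClosed_SS fun _ hp => le_of_eq hp

theorem isCompact_QQ : IsCompact QQ := by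
  have : QQ = closedBall (0 : ℝ × ℝ) 1 := by
    ext y; simp [QQ]
  rw [this]; exact isCompact_closedBall _ _

theorem isCompact_dQ : IsCompact dQ := by
  have : dQ = sphere (0 : ℝ × ℝ) 1 := by
    ext y; simp [dQ]
  rw [this]; exact isCompact_sphere _ _

theorem convex_QQ : Convex ℝ QQ := by
  have : QQ = closedBall (0 : ℝ × ℝ) 1 := by
    ext y; simp [QQ]
  rw [this]; exact convex_closedBall _ _

/-! ### conical functions -/

section fun_lemmas

variable {E : Type*} [NormedAddCommGroup E] [NormedSpace ℝ E] {X : Set E} {x : E}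

theorem conicalWithinAt_abs {a : E → ℝ} (ha : ConicalWithinAt a X x)
    (hac : ContinuousWithinAt a X x) : ConicalWithinAt (fun y => |a y|) X x := by
  have := ha.rmax ha.neg hac hac.neg
  simpa only [abs_eq_max_neg] using this

theorem conicalOn_abs {a : E → ℝ} (ha : ConicalOn a X)
    (hac : ContinuousOn a X) : ConicalOn (fun y => |a y|) X :=
  fun x hx => conicalWithinAt_abs (ha x hx) (hac x hx)

theorem conicalOn_norm2 {a : E → ℝ × ℝ} (ha : ConicalOn a X)
    (hac : ContinuousOn a X) : ConicalOn (fun y => ‖a y‖) X := by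
  have h1 : ConicalOn (fun y => (a y).1) X := fun x hx =>
    (ha x hx).linear_comp (LinearMap.fst ℝ ℝ ℝ)
  have h2 : ConicalOn (fun y => (a y).2) X := fun x hx =>
    (ha x hx).linear_comp (LinearMap.snd ℝ ℝ ℝ)
  have c1 : ContinuousOn (fun y => (a y).1) X := hac.fst
  have c2 : ContinuousOn (fun y => (a y).2) X := hac.snd
  have := (conicalOn_abs h1 c1).rmax (conicalOn_abs h2 c2) c1.abs c2.abs
  refine this.congr fun y _ => ?_
  rw [Prod.norm_def, Real.norm_eq_abs, Real.norm_eq_abs]

end fun_lemmas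

theorem conicalSet_univ {E : Type*} [NormedAddCommGroup E] [NormedSpace ℝ E] :
    ConicalSet (univ : Set E) := Convex.conicalSet convex_univ

/-! ### The flat charts of the two hemispheres -/

/-- The upper hemisphere is a graph over the square. -/
noncomputable def up : ConHomeo QQ SSp where
  toFun := fun y => (y, 1 - ‖y‖)
  invFun := fun p => p.1
  mapsTo := by
    intro y hy
    have hy' : ‖y‖ ≤ 1 := hy
    refine ⟨?_, by simpa using hy'⟩
    show ‖y‖ + |1 - ‖y‖| = 1
    rw [abs_of_nonneg (by linarith)]; ring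
  mapsTo_inv := by
    intro p hp
    have h1 : ‖p.1‖ + |p.2| = 1 := hp.1
    show ‖p.1‖ ≤ 1
    linarith [abs_nonneg p.2]
  left_inv := fun y _ => rfl
  right_inv := by
    intro p hp
    have h1 : ‖p.1‖ + |p.2| = 1 := hp.1
    rw [abs_of_nonneg hp.2] at h1
    refine Prod.ext rfl ?_
    show 1 - ‖p.1‖ = p.2
    linarith
  cont := by fun_prop
  cont_inv := by fun_prop
  conical := by
    have hQ : ConicalSet QQ := Convex.conicalSet convex_QQ
    refine (conicalOn_id hQ).prodMk ?_
    exact (conicalOn_const 1 hQ).sub (conicalOn_norm2 (conicalOn_id hQ) continuousOn_id)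

/-- The lower hemisphere is a graph over the square. -/
noncomputable def dn : ConHomeo QQ SSm where
  toFun := fun y => (y, ‖y‖ - 1)
  invFun := fun p => p.1
  mapsTo := by
    intro y hy
    have hy' : ‖y‖ ≤ 1 := hy
    refine ⟨?_, by simpa using hy'⟩
    show ‖y‖ + |‖y‖ - 1| = 1
    rw [abs_of_nonpos (by linarith)]; ring
  mapsTo_inv := by
    intro p hp
    have h1 : ‖p.1‖ + |p.2| = 1 := hp.1
    show ‖p.1‖ ≤ 1
    linarith [abs_nonneg p.2]
  left_inv := fun y _ => rfl
  right_inv := by
    intro p hp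
    have h1 : ‖p.1‖ + |p.2| = 1 := hp.1
    rw [abs_of_nonpos hp.2] at h1
    refine Prod.ext rfl ?_
    show ‖p.1‖ - 1 = p.2
    linarith
  cont := by fun_prop
  cont_inv := by fun_prop
  conical := by
    have hQ : ConicalSet QQ := Convex.conicalSet convex_QQ
    refine (conicalOn_id hQ).prodMk ?_
    exact (conicalOn_norm2 (conicalOn_id hQ) continuousOn_id).sub (conicalOn_const 1 hQ)

/-! ### Homogeneous extension -/

/-- homogeneous extension of a map of the standard sphere -/
noncomputable def hext (φ : M3 → M3) : M3 → M3 := fun x => gN x • φ ((gN x)⁻¹ • x)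

theorem hext_smul (φ : M3 → M3) {s : ℝ} (hs : 0 ≤ s) {x : M3} (hx : x ∈ SS) :
    hext φ (s • x) = s • φ x := by
  unfold hext
  have hx1 : gN x = 1 := hx
  rcases eq_or_lt_of_le hs with h0 | h0
  · rw [← h0, zero_smul, gN_zero, zero_smul, zero_smul]
  · rw [gN_smul, abs_of_pos h0, hx1, mul_one, smul_smul, inv_mul_cancel₀ h0.ne', one_smul]

theorem hext_eq (φ : M3 → M3) {x : M3} (hx : x ∈ SS) : hext φ x = φ x := by
  have := hext_smul φ (s := 1) zero_le_one hx
  simpa using this

theorem normalize_mem {x : M3} (hx : x ≠ 0) : (gN x)⁻¹ • x ∈ SS := by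
  show gN _ = 1
  have h := gN_pos hx
  rw [gN_smul, abs_of_pos (inv_pos.2 h), inv_mul_cancel₀ h.ne']

theorem hext_zero (φ : M3 → M3) : hext φ 0 = 0 := by
  simp [hext, gN_zero]

theorem hext_hsmul (φ : M3 → M3) {t : ℝ} (ht : 0 ≤ t) (x : M3) :
    hext φ (t • x) = t • hext φ x := by
  rcases eq_or_ne x 0 with rfl | hx
  · rw [smul_zero, hext_zero, smul_zero]
  · have h := gN_pos hx
    have e : x = gN x • ((gN x)⁻¹ • x) := by rw [smul_smul, mul_inv_cancel₀ h.ne', one_smul]
    have h1 : hext φ x = gN x • φ ((gN x)⁻¹ • x) := rfl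
    conv_lhs => rw [e, smul_smul]
    rw [hext_smul φ (mul_nonneg ht h.le) (normalize_mem hx), h1, smul_smul]

theorem conicalWithinAt_hext {φ : M3 → M3} (hφ : ConicalOn φ SS) (x : M3) :
    ConicalWithinAt (hext φ) univ x := by
  rcases eq_or_ne x 0 with rfl | hx
  · refine ⟨1, one_pos, fun v _ _ t ht => ⟨mem_univ _, ?_⟩⟩
    rw [zero_add, zero_add, hext_zero, sub_zero, zero_add, hext_hsmul φ ht.1]
  · have hs0 := gN_pos hx
    obtain ⟨s₀, hs₀⟩ : ∃ s₀, s₀ = gN x := ⟨_, rfl⟩
    obtain ⟨θ, hθ⟩ : ∃ θ, θ = (gN x)⁻¹ • x := ⟨_, rfl⟩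
    rw [← hs₀] at hs0
    have hθS : θ ∈ SS := hθ ▸ normalize_mem hx
    obtain ⟨r, hr, H⟩ := hφ θ hθS
    -- continuity of the normalization
    have hcont : ContinuousAt (fun y : M3 => (gN y)⁻¹ • y) x := by
      have hg : ContinuousAt gN x := continuous_gN.continuousAt
      exact (hg.inv₀ (hs₀ ▸ hs0.ne')).smul continuousAt_id
    have hev : ∀ᶠ y in 𝓝 x, ‖(gN y)⁻¹ • y - θ‖ ≤ r ∧ y ≠ 0 := by
      refine Filter.Eventually.and ?_ (eventually_ne_nhds hx)
      have := hcont.eventually (closedBall_mem_nhds _ hr)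
      filter_upwards [this] with y hy
      rw [hθ]
      rwa [← dist_eq_norm]
    obtain ⟨δ, hδ, hb⟩ := Metric.nhds_basis_closedBall.mem_iff.1 hev
    refine ⟨δ, hδ, fun w hw _ t ht => ⟨mem_univ _, ?_⟩⟩
    have h1 : x + w ∈ closedBall x δ := by
      rw [mem_closedBall, dist_eq_norm, add_sub_cancel_left]; exact hw
    obtain ⟨hηθ, hne⟩ := hb h1
    have hspos := gN_pos hne
    obtain ⟨s, hs⟩ : ∃ s, s = gN (x + w) := ⟨_, rfl⟩
    obtain ⟨η, hη⟩ : ∃ η, η = (gN (x + w))⁻¹ • (x + w) := ⟨_, rfl⟩
    rw [← hs] at hspos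
    rw [← hη] at hηθ
    have hηS : η ∈ SS := hη ▸ normalize_mem hne
    have hσ : 0 < (1 - t) * s₀ + t * s := by
      rcases eq_or_lt_of_le ht.1 with h | h
      · rw [← h]; simpa using hs0
      · have := mul_nonneg (sub_nonneg.2 ht.2) hs0.le
        have := mul_pos h hspos
        linarith
    have hτ : t * s / ((1 - t) * s₀ + t * s) ∈ Icc (0:ℝ) 1 := by
      refine ⟨div_nonneg (mul_nonneg ht.1 hspos.le) hσ.le, ?_⟩
      rw [div_le_one hσ]
      have := mul_nonneg (sub_nonneg.2 ht.2) hs0.le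
      linarith
    obtain ⟨c1, c2⟩ := H (η - θ) hηθ (by simpa using hηS) _ hτ
    have hx' : x = s₀ • θ := by
      rw [hθ, ← hs₀, smul_smul, mul_inv_cancel₀ hs0.ne', one_smul]
    have hxw : x + w = s • η := by
      rw [hη, ← hs, smul_smul, mul_inv_cancel₀ hspos.ne', one_smul]
    have hw' : w = s • η - s₀ • θ := by rw [← hxw, ← hx']; abel
    have e1 : x + t • w = ((1 - t) * s₀ + t * s) •
        (θ + (t * s / ((1 - t) * s₀ + t * s)) • (η - θ)) := by
      rw [smul_add, smul_smul, mul_div_cancel₀ _ hσ.ne', hw']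
      nth_rewrite 1 [hx']
      module
    rw [add_sub_cancel] at c2
    have e2 : hext φ x = s₀ • φ θ := by
      conv_lhs => rw [hx']
      exact hext_smul φ hs0.le hθS
    have e3 : hext φ (x + w) = s • φ η := by
      conv_lhs => rw [hxw]
      exact hext_smul φ hspos.le hηS
    rw [e1, hext_smul φ hσ.le c1, e2, e3, c2, smul_add, smul_smul, mul_div_cancel₀ _ hσ.ne']
    module

theorem continuous_hext {φ : M3 → M3} (hφ : ContinuousOn φ SS) : Continuous (hext φ) := by
  rw [continuous_iff_continuousAt]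
  intro x
  rcases eq_or_ne x 0 with rfl | hx
  · -- bounded
    obtain ⟨C, hC⟩ := (isCompact_SS.image_of_continuousOn hφ).isBounded.exists_norm_le
    have hC' : ∀ y, ‖hext φ y‖ ≤ gN y * C := by
      intro y
      rcases eq_or_ne y 0 with rfl | hy
      · rw [hext_zero, gN_zero]; simp
      · show ‖gN y • φ ((gN y)⁻¹ • y)‖ ≤ _
        rw [norm_smul, Real.norm_of_nonneg (gN_nonneg y)]
        exact mul_le_mul_of_nonneg_left (hC _ ⟨_, normalize_mem hy, rfl⟩) (gN_nonneg y)
    rw [ContinuousAt, hext_zero]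
    refine squeeze_zero_norm hC' ?_
    have : Tendsto (fun y : M3 => gN y * C) (𝓝 0) (𝓝 (gN 0 * C)) :=
      (continuous_gN.mul continuous_const).tendsto 0
    simpa [gN_zero] using this
  · have hs0 := gN_pos hx
    have hcont : ContinuousAt (fun y : M3 => (gN y)⁻¹ • y) x := by
      have hg : ContinuousAt gN x := continuous_gN.continuousAt
      exact (hg.inv₀ hs0.ne').smul continuousAt_id
    show ContinuousAt (fun y => gN y • φ ((gN y)⁻¹ • y)) x
    refine continuous_gN.continuousAt.smul ?_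
    have h2 : Tendsto (fun y : M3 => (gN y)⁻¹ • y) (𝓝 x) (𝓝[SS] ((gN x)⁻¹ • x)) := by
      refine tendsto_nhdsWithin_iff.2 ⟨hcont, ?_⟩
      filter_upwards [eventually_ne_nhds hx] with y hy
      exact normalize_mem hy
    exact Tendsto.comp (hφ _ (normalize_mem hx)) h2

/-- homogeneous extension of a conical homeomorphism of the standard sphere to the space -/
noncomputable def hextHomeo (φ : ConHomeo SS SS) : ConHomeo (univ : Set M3) (univ : Set M3) where
  toFun := hext φ.toFun
  invFun := hext φ.invFun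
  mapsTo := fun _ _ => mem_univ _
  mapsTo_inv := fun _ _ => mem_univ _
  left_inv := by
    intro x _
    rcases eq_or_ne x 0 with rfl | hx
    · rw [hext_zero, hext_zero]
    · have h := gN_pos hx
      have e : x = gN x • ((gN x)⁻¹ • x) := by rw [smul_smul, mul_inv_cancel₀ h.ne', one_smul]
      have h1 : hext φ.toFun x = gN x • φ.toFun ((gN x)⁻¹ • x) := rfl
      rw [h1, hext_smul _ h.le (φ.mapsTo (normalize_mem hx)), φ.left_inv (normalize_mem hx)]
      exact e.symm
  right_inv := by
    intro x _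
    rcases eq_or_ne x 0 with rfl | hx
    · rw [hext_zero, hext_zero]
    · have h := gN_pos hx
      have e : x = gN x • ((gN x)⁻¹ • x) := by rw [smul_smul, mul_inv_cancel₀ h.ne', one_smul]
      have h1 : hext φ.invFun x = gN x • φ.invFun ((gN x)⁻¹ • x) := rfl
      rw [h1, hext_smul _ h.le (φ.mapsTo_inv (normalize_mem hx)), φ.right_inv (normalize_mem hx)]
      exact e.symm
  cont := (continuous_hext φ.cont).continuousOn
  cont_inv := (continuous_hext φ.cont_inv).continuousOn
  conical := fun x _ => conicalWithinAt_hext φ.conical x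

theorem hextHomeo_eq (φ : ConHomeo SS SS) {x : M3} (hx : x ∈ SS) :
    (hextHomeo φ).toFun x = φ.toFun x := hext_eq _ hx

theorem gN_hext (φ : ConHomeo SS SS) (x : M3) : gN (hext φ.toFun x) = gN x := by
  rcases eq_or_ne x 0 with rfl | hx
  · rw [hext_zero]
  · show gN (gN x • φ.toFun ((gN x)⁻¹ • x)) = gN x
    have h1 : gN (φ.toFun ((gN x)⁻¹ • x)) = 1 := φ.mapsTo (normalize_mem hx)
    rw [gN_smul, abs_of_nonneg (gN_nonneg x), h1, mul_one]

end Push

end P073
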