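import Vale.Agent.P073.ALXG.Ind
import Vale.Agent.P073.ALX.Box
import Vale.Agent.P073.H225.Slab

/-!
# P073, block ALX-RED: `SpecRED3` from the one-box statement `ALX.SpecBox`
-/

open Set Metric Topology Filter

namespace P073.ALXG

theorem specOneBox_of (h : ALX.SpecBox) : SpecOneBox := by
  intro S g w₀ c δ ρ μ hS hδ hρ _ hv hc _ _
  obtain ⟨S', M, h1, h2, h3, h4, h5, h6⟩ := h S g w₀ c δ ρ hS hδ hρ hv hc
  refine ⟨S', M, h1, h2, fun p hp => h3 p ?_, fun w z hz => h4 w z ?_ ?_, h5, h6⟩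
  · rcases lt_abs.1 hp with h | h
    · right; linarith
    · left; linarith
  · have := (abs_lt.1 hz).1; linarith
  · have := (abs_lt.1 hz).2; linarith

theorem specRED3_of_oneBox (h : SpecOneBox) : ALX.SpecRED3 := by
  intro S hS
  obtain ⟨S', s, T, h1, h2⟩ := exists_reduction h H225.specSlab hS
  exact ⟨s, T, S', h1, h2⟩

theorem specRED3 (h : ALX.SpecBox) : ALX.SpecRED3 := specRED3_of_oneBox (specOneBox_of h)

end P073.ALXG
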